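import Vale.Agent.P146.H522.Rot

/-!
Linear algebra for the bulk transfer: the top eigenvector of a symmetric matrix and the rank one
defect, matrices dominated by an almost rank one matrix, comparison of the defects.
-/

open Matrix Vale.Agent.P146.H332 Vale.Agent.P146.H522

namespace Vale.Agent.P146.H633

set_option linter.unusedSectionVars false
set_option linter.unusedDecidableInType false

variable {q : Type} [Fintype q] [DecidableEq q]

/-- The projection orthogonal to the unit vector `v`. -/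
def pj (v : q → ℝ) : Matrix q q ℝ := 1 - vecMulVec v v

lemma pj_apply (v : q → ℝ) (i j : q) : pj v i j = (if i = j then 1 else 0) - v i * v j := by
  unfold pj
  rw [Matrix.sub_apply, vecMulVec_apply, Matrix.one_apply]

lemma pj_T (v : q → ℝ) : (pj v)ᵀ = pj v := by
  ext i j
  rw [transpose_apply, pj_apply, pj_apply]
  have : (if j = i then (1 : ℝ) else 0) = if i = j then 1 else 0 := by
    by_cases h : i = j
    · rw [h]
    · rw [if_neg h, if_neg (Ne.symm h)]
  rw [this, mul_comm (v j)]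

lemma vv_mul {v : q → ℝ} (hv : ∑ i, v i ^ 2 = 1) :
    vecMulVec v v * vecMulVec v v = vecMulVec v v := by
  rw [vecMulVec_mul_vecMulVec]
  have : v ⬝ᵥ v = 1 := by
    rw [← hv]
    exact Finset.sum_congr rfl fun i _ => (sq (v i)).symm
  rw [this, one_smul]

lemma pj_mul_self {v : q → ℝ} (hv : ∑ i, v i ^ 2 = 1) : pj v * pj v = pj v := by
  unfold pj
  rw [mul_sub, sub_mul, sub_mul, vv_mul hv, mul_one, one_mul, mul_one]
  abel

lemma dot_self (v : q → ℝ) : v ⬝ᵥ v = ∑ i, v i ^ 2 :=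
  Finset.sum_congr rfl fun i _ => (sq (v i)).symm

lemma pj_mulVec (v w : q → ℝ) : pj v *ᵥ w = w - (v ⬝ᵥ w) • v := by
  unfold pj
  rw [sub_mulVec, one_mulVec, vecMulVec_mulVec]
  congr 1
  funext i
  simp [mul_comm]

lemma pj_v {v : q → ℝ} (hv : ∑ i, v i ^ 2 = 1) : pj v *ᵥ v = 0 := by
  rw [pj_mulVec, dot_self, hv, one_smul, sub_self]

/-- a projection decreases the norm -/
lemma pj_norm_le {v : q → ℝ} (hv : ∑ i, v i ^ 2 = 1) (w : q → ℝ) :
    ∑ i, (pj v *ᵥ w) i ^ 2 ≤ ∑ i, w i ^ 2 := by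
  rw [← dot_self, ← dot_self, pj_mulVec, sub_dotProduct, dotProduct_sub, dotProduct_sub,
    smul_dotProduct, dotProduct_smul, smul_dotProduct, dotProduct_smul, dot_self v, hv,
    dotProduct_comm w v]
  simp only [smul_eq_mul, mul_one]
  nlinarith [sq_nonneg (v ⬝ᵥ w)]

lemma fr_conj_U {U : Matrix q q ℝ} (hU : Uᵀ * U = 1) (M : Matrix q q ℝ) :
    fr (U * M * Uᵀ) = fr M := by
  have h := fr_conj (U := Uᵀ) (by rw [transpose_transpose]; exact hU) M
  rwa [transpose_transpose] at h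

/-- The top eigenvector, with the eigenvalue. -/
theorem top_eig [Nonempty q] {A : Matrix q q ℝ} (hA : Aᵀ = A) :
    ∃ (v : q → ℝ) (m : ℝ), ∑ i, v i ^ 2 = 1 ∧ (∀ i, (A *ᵥ v) i = m * v i) ∧ (m = 0 → A = 0) ∧
      fr (pj v * A * pj v) * fr A ≤ dfc A := by
  obtain ⟨U, l, h1, h2, h3⟩ := diag_sym hA
  obtain ⟨i0, hi0⟩ := Finite.exists_max fun i => l i ^ 2
  set d : q → ℝ := fun i => if i = i0 then 0 else 1 with hd
  refine ⟨fun j => U j i0, l i0, ?_, ?_, ?_, ?_⟩
  · have : (Uᵀ * U) i0 i0 = 1 := by rw [h2, one_apply_eq]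
    rw [← this, mul_apply]
    exact Finset.sum_congr rfl fun j _ => by rw [transpose_apply, sq]
  · intro i
    have e1 : A * U = U * diagonal l := by
      rw [h3]
      calc U * diagonal l * Uᵀ * U = U * diagonal l * (Uᵀ * U) := by
            simp only [Matrix.mul_assoc]
        _ = _ := by rw [h2, Matrix.mul_one]
    have e2 : (A *ᵥ fun j => U j i0) i = (A * U) i i0 := rfl
    rw [e2, e1, mul_diagonal, mul_comm]
  · intro h0
    have hl : l = 0 := by
      funext i
      have := hi0 i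
      rw [h0] at this
      have h4 : l i ^ 2 = 0 := le_antisymm (by simpa using this) (sq_nonneg _)
      exact pow_eq_zero_iff (two_ne_zero) |>.1 h4
    rw [h3, hl, Matrix.diagonal_zero', Matrix.mul_zero, Matrix.zero_mul]
  have hP : pj (fun j => U j i0) = U * diagonal d * Uᵀ := by
    ext i j
    rw [pj_apply, mul_apply]
    have e1 : ∀ a, (U * diagonal d) i a * Uᵀ a j = U i a * Uᵀ a j -
        (if a = i0 then U i a * U j a else 0) := by
      intro a
      rw [mul_diagonal, transpose_apply]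
      simp only [hd]
      by_cases ha : a = i0
      · simp [ha]
      · simp [ha]
    simp only [e1, Finset.sum_sub_distrib, Finset.sum_ite_eq', Finset.mem_univ, if_true]
    congr 1
    have : (U * Uᵀ) i j = if i = j then (1 : ℝ) else 0 := by rw [h1, one_apply]
    rw [← this, mul_apply]
  have e2 : pj (fun j => U j i0) * A * pj (fun j => U j i0) =
      U * diagonal (fun i => d i * l i * d i) * Uᵀ := by
    rw [hP, h3]
    have : U * diagonal d * Uᵀ * (U * diagonal l * Uᵀ) * (U * diagonal d * Uᵀ) =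
        U * (diagonal d * (Uᵀ * U) * diagonal l * (Uᵀ * U) * diagonal d) * Uᵀ := by
      simp only [Matrix.mul_assoc]
    rw [this, h2, Matrix.mul_one, Matrix.mul_one, diagonal_mul_diagonal, diagonal_mul_diagonal]
  have e3 : A * A = U * diagonal (fun i => l i * l i) * Uᵀ := by
    rw [h3]
    have : U * diagonal l * Uᵀ * (U * diagonal l * Uᵀ) =
        U * (diagonal l * (Uᵀ * U) * diagonal l) * Uᵀ := by simp only [Matrix.mul_assoc]
    rw [this, h2, Matrix.mul_one, diagonal_mul_diagonal]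
  have e4 : fr A = ∑ i, l i ^ 2 := by rw [h3, fr_conj_U h2, fr_diagonal]
  unfold dfc
  rw [e2, e3, fr_conj_U h2, fr_conj_U h2, fr_diagonal, fr_diagonal, e4]
  have e5 : ∑ i, (d i * l i * d i) ^ 2 = ∑ i, l i ^ 2 - l i0 ^ 2 := by
    have : ∀ i, (d i * l i * d i) ^ 2 = l i ^ 2 - if i = i0 then l i ^ 2 else 0 := by
      intro i
      simp only [hd]
      by_cases hi : i = i0
      · simp [hi]
      · simp [hi]
    simp only [this, Finset.sum_sub_distrib, Finset.sum_ite_eq', Finset.mem_univ, if_true]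
  have e6 : ∑ i, (l i * l i) ^ 2 ≤ (∑ i, l i ^ 2) * l i0 ^ 2 := by
    rw [Finset.sum_mul]
    refine Finset.sum_le_sum fun i _ => ?_
    have := mul_le_mul_of_nonneg_left (hi0 i) (sq_nonneg (l i))
    nlinarith
  rw [e5]
  nlinarith

/-- **The top eigenvector.** -/
theorem top_vec [Nonempty q] {A : Matrix q q ℝ} (hA : Aᵀ = A) :
    ∃ v : q → ℝ, ∑ i, v i ^ 2 = 1 ∧ fr (pj v * A * pj v) * fr A ≤ dfc A := by
  obtain ⟨v, m, h1, -, -, h2⟩ := top_eig hA
  exact ⟨v, h1, h2⟩

/-- **The top eigenvector of a matrix supported outside of `S`.** -/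
theorem top_vec_off {A : Matrix q q ℝ} (hA : Aᵀ = A) {S : q → Prop}
    (hS : ∀ i, S i → ∀ j, A i j = 0) {c : q} (hc : ¬ S c) :
    ∃ v : q → ℝ, ∑ i, v i ^ 2 = 1 ∧ (∀ i, S i → v i = 0) ∧
      fr (pj v * A * pj v) * fr A ≤ dfc A := by
  have : Nonempty q := ⟨c⟩
  by_cases h0 : A = 0
  · refine ⟨fun i => if i = c then 1 else 0, ?_, ?_, ?_⟩
    · have : ∀ i, (if i = c then (1 : ℝ) else 0) ^ 2 = if i = c then 1 else 0 := by
        intro i; split_ifs <;> simp
      simp only [this, Finset.sum_ite_eq', Finset.mem_univ, if_true]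
    · intro i hi
      have : i ≠ c := fun h => hc (h ▸ hi)
      simp only [this, if_false]
    · rw [h0]
      unfold dfc
      simp [fr]
  · obtain ⟨v, m, h1, h2, h3, h4⟩ := top_eig hA
    refine ⟨v, h1, fun i hi => ?_, h4⟩
    have hm : m ≠ 0 := fun h => h0 (h3 h)
    have e : (A *ᵥ v) i = 0 := by
      unfold mulVec dotProduct
      refine Finset.sum_eq_zero fun j _ => ?_
      show A i j * v j = 0
      rw [hS i hi j, zero_mul]
    have := h2 i
    rw [e] at this
    exact (mul_eq_zero.1 this.symm).resolve_left hm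

/-! ### psd matrices -/

lemma qf_nonneg {M : Matrix q q ℝ} (hM : Psd M) (u : q → ℝ) : 0 ≤ u ⬝ᵥ (M *ᵥ u) := by
  refine (hM.2 u).trans (le_of_eq ?_)
  unfold dotProduct mulVec dotProduct
  refine Finset.sum_congr rfl fun i _ => ?_
  rw [Finset.mul_sum]
  exact Finset.sum_congr rfl fun j _ => by ring

lemma sym_dot {M : Matrix q q ℝ} (hM : Mᵀ = M) (u v : q → ℝ) :
    u ⬝ᵥ (M *ᵥ v) = v ⬝ᵥ (M *ᵥ u) := by
  rw [dotProduct_mulVec, ← mulVec_transpose, hM, dotProduct_comm]

/-- Cauchy-Schwarz for a positive semidefinite form. -/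
lemma psd_cs {M : Matrix q q ℝ} (hM : Psd M) (u v : q → ℝ) :
    (u ⬝ᵥ (M *ᵥ v)) ^ 2 ≤ (u ⬝ᵥ (M *ᵥ u)) * (v ⬝ᵥ (M *ᵥ v)) := by
  have h := discrim_le_zero (a := v ⬝ᵥ (M *ᵥ v)) (b := 2 * (u ⬝ᵥ (M *ᵥ v)))
    (c := u ⬝ᵥ (M *ᵥ u)) fun t => by
      have h1 := qf_nonneg hM (u + t • v)
      rw [mulVec_add, mulVec_smul, add_dotProduct, dotProduct_add, dotProduct_add,
        smul_dotProduct, smul_dotProduct, dotProduct_smul, dotProduct_smul,
        sym_dot hM.1 v u] at h1
      simp only [smul_eq_mul] at h1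
      nlinarith
  unfold discrim at h
  nlinarith

/-- A quadratic form is at most the Frobenius norm. -/
lemma qf_le_nf (M : Matrix q q ℝ) (u : q → ℝ) : |u ⬝ᵥ (M *ᵥ u)| ≤ nf M * ∑ i, u i ^ 2 := by
  have e1 : u ⬝ᵥ (M *ᵥ u) = ip M (vecMulVec u u) := by
    unfold ip dotProduct mulVec dotProduct
    refine Finset.sum_congr rfl fun i _ => ?_
    rw [Finset.mul_sum]
    exact Finset.sum_congr rfl fun j _ => by rw [vecMulVec_apply]; ring
  have e2 : fr (vecMulVec u u) = (∑ i, u i ^ 2) ^ 2 := by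
    unfold fr
    rw [sq (∑ i, u i ^ 2), Finset.sum_mul_sum]
    exact Finset.sum_congr rfl fun i _ => Finset.sum_congr rfl fun j _ => by
      rw [vecMulVec_apply]; ring
  have e3 : nf (vecMulVec u u) = ∑ i, u i ^ 2 := by
    unfold nf
    rw [e2, Real.sqrt_sq (Finset.sum_nonneg fun i _ => sq_nonneg _)]
  rw [e1, ← e3]
  exact ip_le_nf _ _

lemma sym_aux {P : Matrix q q ℝ} (hP : Pᵀ = P) (u c : q → ℝ) :
    u ⬝ᵥ (P *ᵥ c) = (P *ᵥ u) ⬝ᵥ c := by
  rw [dotProduct_mulVec, ← mulVec_transpose, hP]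

lemma psd_conj' {B : Matrix q q ℝ} (hB : Psd B) {P : Matrix q q ℝ} (hP : Pᵀ = P) :
    Psd (P * B * P) := by
  refine ⟨by simp only [transpose_mul, hP, hB.1, Matrix.mul_assoc], fun c => ?_⟩
  have h := qf_nonneg hB (P *ᵥ c)
  refine h.trans (le_of_eq ?_)
  have e : (P *ᵥ c) ⬝ᵥ (B *ᵥ (P *ᵥ c)) = c ⬝ᵥ ((P * B * P) *ᵥ c) := by
    rw [mulVec_mulVec, dotProduct_comm, sym_aux hP]
    rw [mulVec_mulVec, dotProduct_comm, Matrix.mul_assoc]
  rw [e]
  unfold dotProduct mulVec dotProduct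
  refine Finset.sum_congr rfl fun i _ => ?_
  rw [Finset.mul_sum]
  exact Finset.sum_congr rfl fun j _ => by ring

lemma psd_sub_conj {A M : Matrix q q ℝ} (hA : Psd (A - M)) {P : Matrix q q ℝ} (hP : Pᵀ = P) :
    Psd (P * A * P - P * M * P) := by
  have := psd_conj' hA hP
  rwa [Matrix.mul_sub, Matrix.sub_mul] at this

lemma fr_mono {X Y : Matrix q q ℝ} (hX : Psd X) (hY : Psd (Y - X)) : fr X ≤ fr Y := by
  have := hX.fr_le_add hY
  rwa [add_sub_cancel] at this

/-- the Frobenius norm of a conjugated matrix -/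
lemma fr_pj_le {v : q → ℝ} (hv : ∑ i, v i ^ 2 = 1) (A : Matrix q q ℝ) :
    fr (pj v * A) ≤ fr A := by
  have e : ∀ M : Matrix q q ℝ, fr M = ∑ j, ∑ i, (M i j) ^ 2 := fun M => Finset.sum_comm
  rw [e, e]
  refine Finset.sum_le_sum fun j _ => ?_
  exact pj_norm_le hv fun i => A i j

lemma fr_pj_le' {v : q → ℝ} (hv : ∑ i, v i ^ 2 = 1) (A : Matrix q q ℝ) :
    fr (A * pj v) ≤ fr A := by
  rw [← fr_transpose, transpose_mul, pj_T, ← fr_transpose A]
  exact fr_pj_le hv _

lemma fr_pap_le {v : q → ℝ} (hv : ∑ i, v i ^ 2 = 1) (A : Matrix q q ℝ) :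
    fr (pj v * A * pj v) ≤ fr A := (fr_pj_le' hv _).trans (fr_pj_le hv A)

/-- **A matrix dominated by an almost rank one matrix is almost of rank one.** -/
theorem rank_one {A M : Matrix q q ℝ} (hM : Psd M) (hAM : Psd (A - M)) {v : q → ℝ}
    (hv : ∑ i, v i ^ 2 = 1) :
    fr (M - (v ⬝ᵥ (M *ᵥ v)) • vecMulVec v v) ≤ 3 * √(fr (pj v * A * pj v) * fr A) := by
  set m : ℝ := v ⬝ᵥ (M *ᵥ v) with hm
  set K : Matrix q q ℝ := pj v * M * pj v with hK
  set w : q → ℝ := pj v *ᵥ (M *ᵥ v) with hw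
  have hvv : v ⬝ᵥ v = 1 := by rw [dot_self, hv]
  have hwd : w = M *ᵥ v - m • v := by rw [hw, pj_mulVec]
  have hwv : w ⬝ᵥ v = 0 := by
    rw [hwd, sub_dotProduct, smul_dotProduct, hvv, dotProduct_comm, smul_eq_mul, mul_one, sub_self]
  have hKv : K *ᵥ v = 0 := by
    rw [hK, ← mulVec_mulVec, pj_v hv, mulVec_zero]
  have hKs : Kᵀ = K := (psd_conj' hM (pj_T v)).1
  -- the decomposition
  have dec : ∀ i j, (M - m • vecMulVec v v) i j = w i * v j + v i * w j + K i j := by
    have hk : K = M - vecMulVec v v * M - M * vecMulVec v v +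
        vecMulVec v v * M * vecMulVec v v := by
      rw [hK]; unfold pj
      simp only [Matrix.sub_mul, Matrix.mul_sub, Matrix.one_mul, Matrix.mul_one]
      abel
    have h1 : vecMulVec v v * M = vecMulVec v (M *ᵥ v) := by
      rw [vecMulVec_mul, ← mulVec_transpose, hM.1]
    have h2 : M * vecMulVec v v = vecMulVec (M *ᵥ v) v := by rw [mul_vecMulVec]
    have h3 : vecMulVec v v * M * vecMulVec v v = m • vecMulVec v v := by
      rw [h1, vecMulVec_mul_vecMulVec, hm, dotProduct_comm]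
      ext i j
      rw [vecMulVec_apply, Pi.smul_apply, Matrix.smul_apply, vecMulVec_apply, smul_eq_mul,
        smul_eq_mul]
      ring
    intro i j
    rw [h3, h1, h2] at hk
    rw [hk, hwd]
    simp only [Matrix.sub_apply, Matrix.add_apply, Matrix.smul_apply, vecMulVec_apply,
      smul_eq_mul, Pi.sub_apply, Pi.smul_apply]
    ring
  have hfr : fr (M - m • vecMulVec v v) = 2 * ∑ i, w i ^ 2 + fr K := by
    unfold fr
    simp only [dec]
    have e : ∀ i j, (w i * v j + v i * w j + K i j) ^ 2 = w i ^ 2 * v j ^ 2 + v i ^ 2 * w j ^ 2 +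
        2 * ((w i * v i) * (w j * v j)) + K i j ^ 2 + 2 * (w i * (K i j * v j)) +
        2 * (w j * (K i j * v i)) := fun i j => by ring
    have s1 : ∑ i, ∑ j, w i ^ 2 * v j ^ 2 = ∑ i, w i ^ 2 := by
      simp only [← Finset.mul_sum, hv, mul_one]
    have s2 : ∑ i, ∑ j, v i ^ 2 * w j ^ 2 = ∑ i, w i ^ 2 := by
      rw [← Finset.sum_mul_sum, hv, one_mul]
    have s3 : ∑ i, ∑ j, 2 * ((w i * v i) * (w j * v j)) = 0 := by
      have h0 : ∑ i, w i * v i = 0 := hwv
      have h1 : ∀ i, ∑ j, 2 * ((w i * v i) * (w j * v j)) = 2 * ((w i * v i) * ∑ j, w j * v j) :=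
        fun i => by rw [Finset.mul_sum, Finset.mul_sum]
      simp only [h1, h0, mul_zero, Finset.sum_const_zero]
    have s4 : ∑ i, ∑ j, 2 * (w i * (K i j * v j)) = 0 := by
      have h0 : ∀ i, ∑ j, K i j * v j = 0 := fun i => congrFun hKv i
      have h1 : ∀ i, ∑ j, 2 * (w i * (K i j * v j)) = 2 * (w i * ∑ j, K i j * v j) :=
        fun i => by rw [Finset.mul_sum, Finset.mul_sum]
      simp only [h1, h0, mul_zero, Finset.sum_const_zero]
    have s5 : ∑ i, ∑ j, 2 * (w j * (K i j * v i)) = 0 := by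
      rw [Finset.sum_comm]
      have e5 : ∀ j i, 2 * (w j * (K i j * v i)) = 2 * (w j * (K j i * v i)) := fun j i => by
        have : K i j = K j i := by rw [← transpose_apply K, hKs]
        rw [this]
      simp only [e5]
      exact s4
    simp only [e, Finset.sum_add_distrib, s1, s2, s3, s4, s5]
    ring
  -- the mixed part
  have hm0 : 0 ≤ m := qf_nonneg hM v
  have hww : ∑ i, w i ^ 2 ≤ m * nf K := by
    set W : ℝ := ∑ i, w i ^ 2 with hW
    have hW0 : 0 ≤ W := Finset.sum_nonneg fun i _ => sq_nonneg _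
    have a1 : w ⬝ᵥ (M *ᵥ v) = W := by
      have : M *ᵥ v = w + m • v := by rw [hwd]; abel
      rw [this, dotProduct_add, dotProduct_smul, hwv, smul_zero, add_zero, dot_self]
    have a2 : w ⬝ᵥ (M *ᵥ w) = w ⬝ᵥ (K *ᵥ w) := by
      have hPw : pj v *ᵥ w = w := by
        rw [pj_mulVec, dotProduct_comm, hwv, zero_smul, sub_zero]
      rw [hK, ← mulVec_mulVec, ← mulVec_mulVec, hPw, sym_aux (pj_T v), hPw]
    have a3 := psd_cs hM w v
    rw [a1, a2] at a3
    have a4 := (le_abs_self _).trans (qf_le_nf K w)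
    have a5 : W ^ 2 ≤ (nf K * W) * m := a3.trans (mul_le_mul_of_nonneg_right a4 hm0)
    rcases hW0.eq_or_lt with h0 | h0
    · rw [← h0]; exact mul_nonneg hm0 (nf_nonneg K)
    · have : W * W ≤ (m * nf K) * W := by nlinarith
      exact le_of_mul_le_mul_right this h0
  have hmA : m ≤ nf A := by
    have h1 : m ≤ v ⬝ᵥ (A *ᵥ v) := by
      have := qf_nonneg hAM v
      rw [sub_mulVec, dotProduct_sub] at this
      linarith
    have h2 := (le_abs_self _).trans (qf_le_nf A v)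
    rw [hv, mul_one] at h2
    exact h1.trans h2
  have hKA : fr K ≤ fr (pj v * A * pj v) :=
    fr_mono (psd_conj' hM (pj_T v)) (psd_sub_conj hAM (pj_T v))
  have hnK : nf K ≤ nf (pj v * A * pj v) := Real.sqrt_le_sqrt hKA
  have hPA := fr_pap_le hv A
  have e0 : √(fr (pj v * A * pj v) * fr A) = nf (pj v * A * pj v) * nf A := by
    unfold nf
    rw [Real.sqrt_mul (fr_nonneg _)]
  have f1 : fr K ≤ nf (pj v * A * pj v) * nf A := by
    rw [← nf_sq K, sq]
    exact mul_le_mul hnK (hnK.trans (Real.sqrt_le_sqrt hPA)) (nf_nonneg _) (nf_nonneg _)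
  have f2 : m * nf K ≤ nf A * nf (pj v * A * pj v) :=
    mul_le_mul hmA hnK (nf_nonneg _) (nf_nonneg _)
  rw [hfr, e0]
  nlinarith

/-! ### comparison of the defects -/

lemma two_dfc {C : Matrix q q ℝ} (hC : Cᵀ = C) :
    ∑ i, ∑ j, ∑ k, ∑ l, (C i j * C k l - C i k * C j l) ^ 2 = 2 * dfc C := by
  have hs : ∀ i j, C i j = C j i := fun i j => by rw [← transpose_apply C, hC]
  have a1 : ∑ i, ∑ j, ∑ k, ∑ l, C i j ^ 2 * C k l ^ 2 = fr C ^ 2 := by
    rw [sq]
    unfold fr
    rw [Finset.sum_mul]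
    refine Finset.sum_congr rfl fun i _ => ?_
    rw [Finset.sum_mul]
    refine Finset.sum_congr rfl fun j _ => ?_
    simp only [Finset.mul_sum]
  have a2 : ∑ i, ∑ j, ∑ k, ∑ l, C i k ^ 2 * C j l ^ 2 = fr C ^ 2 := by
    rw [← a1]
    refine Finset.sum_congr rfl fun i _ => ?_
    rw [Finset.sum_comm]
  have a3 : ∑ i, ∑ j, ∑ k, ∑ l, C i j * C k l * (C i k * C j l) = fr (C * C) := by
    have : fr (C * C) = ∑ j, ∑ k, (∑ i, C j i * C i k) * (∑ l, C j l * C l k) := by
      unfold fr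
      refine Finset.sum_congr rfl fun j _ => Finset.sum_congr rfl fun k _ => ?_
      rw [sq, mul_apply]
    rw [this]
    have b1 : ∑ i, ∑ j, ∑ k, ∑ l, C i j * C k l * (C i k * C j l) =
        ∑ j, ∑ k, ∑ i, ∑ l, C i j * C k l * (C i k * C j l) := by
      rw [Finset.sum_comm]
      refine Finset.sum_congr rfl fun j _ => ?_
      rw [Finset.sum_comm]
    rw [b1]
    refine Finset.sum_congr rfl fun j _ => Finset.sum_congr rfl fun k _ => ?_
    rw [Finset.sum_mul_sum]
    refine Finset.sum_congr rfl fun i _ => Finset.sum_congr rfl fun l _ => ?_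
    rw [hs i j, hs k l]; ring
  have a4 : ∀ i j k l, (C i j * C k l - C i k * C j l) ^ 2 =
      C i j ^ 2 * C k l ^ 2 + C i k ^ 2 * C j l ^ 2 - 2 * (C i j * C k l * (C i k * C j l)) := by
    intros; ring
  have m1 : ∑ i, ∑ j, ∑ k, ∑ l, 2 * (C i j * C k l * (C i k * C j l)) =
      2 * ∑ i, ∑ j, ∑ k, ∑ l, C i j * C k l * (C i k * C j l) := by
    simp only [Finset.mul_sum]
  simp only [a4, Finset.sum_sub_distrib, Finset.sum_add_distrib]
  rw [m1, a1, a2, a3]
  unfold dfc
  ring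

/-- the difference of two tensor squares -/
lemma tens_sub (A C : Matrix q q ℝ) :
    ∑ i, ∑ j, ∑ k, ∑ l, (A i j * A k l - C i j * C k l) ^ 2 ≤
      2 * (fr (A - C) * (fr A + fr C)) := by
  have h1 : ∀ i j k l, (A i j * A k l - C i j * C k l) ^ 2 ≤
      2 * ((A - C) i j ^ 2 * A k l ^ 2) + 2 * (C i j ^ 2 * (A - C) k l ^ 2) := by
    intro i j k l
    have e : A i j * A k l - C i j * C k l = (A - C) i j * A k l + C i j * (A - C) k l := by
      simp only [Matrix.sub_apply]; ring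
    rw [e]
    nlinarith [sq_nonneg ((A - C) i j * A k l - C i j * (A - C) k l)]
  have h2 : ∀ X Y : Matrix q q ℝ, ∑ i, ∑ j, ∑ k, ∑ l, X i j ^ 2 * Y k l ^ 2 = fr X * fr Y := by
    intro X Y
    unfold fr
    rw [Finset.sum_mul]
    refine Finset.sum_congr rfl fun i _ => ?_
    rw [Finset.sum_mul]
    refine Finset.sum_congr rfl fun j _ => ?_
    simp only [Finset.mul_sum]
  refine (Finset.sum_le_sum fun i _ => Finset.sum_le_sum fun j _ => Finset.sum_le_sum fun k _ =>
    Finset.sum_le_sum fun l _ => h1 i j k l).trans (le_of_eq ?_)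
  have h3 : ∀ X Y : Matrix q q ℝ, ∑ i, ∑ j, ∑ k, ∑ l, 2 * (X i j ^ 2 * Y k l ^ 2) =
      2 * (fr X * fr Y) := by
    intro X Y
    rw [← h2 X Y]
    simp only [Finset.mul_sum]
  simp only [Finset.sum_add_distrib]
  rw [h3, h3]
  ring

/-- **Comparison of the rank one defects.** -/
theorem dfc_le {A C : Matrix q q ℝ} (hA : Aᵀ = A) (hC : Cᵀ = C) :
    dfc A ≤ 2 * dfc C + 8 * (fr (A - C) * (fr A + fr C)) := by
  have h1 : ∀ i j k l, (A i j * A k l - A i k * A j l) ^ 2 ≤
      2 * (C i j * C k l - C i k * C j l) ^ 2 + 4 * (A i j * A k l - C i j * C k l) ^ 2 +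
        4 * (A i k * A j l - C i k * C j l) ^ 2 := by
    intro i j k l
    set x := A i j * A k l - C i j * C k l
    set y := A i k * A j l - C i k * C j l
    set t := C i j * C k l - C i k * C j l with ht
    have e : A i j * A k l - A i k * A j l = t + (x - y) := by
      simp only [x, y, t]; ring
    rw [e]
    nlinarith [sq_nonneg (t - (x - y)), sq_nonneg (x + y)]
  have h2 : ∑ i, ∑ j, ∑ k, ∑ l, (A i k * A j l - C i k * C j l) ^ 2 =
      ∑ i, ∑ j, ∑ k, ∑ l, (A i j * A k l - C i j * C k l) ^ 2 := by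
    refine Finset.sum_congr rfl fun i _ => ?_
    rw [Finset.sum_comm]
  have h3 := (Finset.sum_le_sum fun i (_ : i ∈ Finset.univ) => Finset.sum_le_sum
    fun j (_ : j ∈ Finset.univ) => Finset.sum_le_sum fun k (_ : k ∈ Finset.univ) =>
    Finset.sum_le_sum fun l (_ : l ∈ Finset.univ) => h1 i j k l)
  have m1 : ∀ (c : ℝ) (F : q → q → q → q → ℝ), ∑ i, ∑ j, ∑ k, ∑ l, c * F i j k l =
      c * ∑ i, ∑ j, ∑ k, ∑ l, F i j k l := fun c F => by simp only [Finset.mul_sum]
  simp only [Finset.sum_add_distrib] at h3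
  rw [m1, m1, m1, h2, two_dfc hA, two_dfc hC] at h3
  have h4 := tens_sub A C
  linarith

end Vale.Agent.P146.H633
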