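import Vale.Agent.P146.H522.Rot
import Vale.Agent.P146.H332.CDef

/-!
Plan R1, block C, bulk transfer: the smallness functional `Th` of a random symmetric matrix `C`
and a scalar `K` (the size of the defect of the 4-tensor), averaged over the couplings in `R`.
-/

open MeasureTheory ProbabilityTheory Matrix

namespace Vale.Agent.P146.H633

open Vale.Agent.P157.Lv Vale.Agent.P146.H332 Vale.Agent.P146.H522 Vale.Agent.P146.H712
  Vale.Agent.P146.R1C

set_option linter.unusedSectionVars false

section gen

variable {κ : Type} [Fintype κ] [DecidableEq κ] {q : Type} [Fintype q] [DecidableEq q]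

/-- The averaged matrix. -/
noncomputable def CB (s : ℝ) (R : Finset κ) (C : (κ → ℝ) → Matrix q q ℝ) (z : κ → ℝ) :
    Matrix q q ℝ := fun i j => AvP s R (fun z => C z i j) z

/-- The square of the distance to the averaged matrix. -/
noncomputable def Dlt (s : ℝ) (R : Finset κ) (C : (κ → ℝ) → Matrix q q ℝ) (z : κ → ℝ) : ℝ :=
  fr (C z - CB s R C z)

/-- **The smallness functional.** -/
noncomputable def Th (s : ℝ) (R : Finset κ) (C : (κ → ℝ) → Matrix q q ℝ) (K : (κ → ℝ) → ℝ)
    (z : κ → ℝ) : ℝ :=
  AvP s R K z + AvP s R (fun z => fr (C z)) z * AvP s R (Dlt s R C) z +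
    AvP s R (fun z => Dlt s R C z * fr (C z)) z

/-- The size of the defect of a 4-tensor. -/
def KT (T : q → q → q → q → ℝ) (C : Matrix q q ℝ) : ℝ :=
  ∑ i, ∑ j, ∑ p, ∑ l, (T i j p l - C i j * C p l) ^ 2

lemma KT_nonneg (T : q → q → q → q → ℝ) (C : Matrix q q ℝ) : 0 ≤ KT T C := by
  unfold KT; positivity

end gen

end Vale.Agent.P146.H633
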