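import Vale.Agent.P146.H633.Psd2
import Vale.Agent.P146.H712.BtSum

/-!
Plan R1, block C, bulk transfer: (BT0), (BT1). For a random symmetric matrix `C` and a random
4-tensor `T` (symmetric in the two middle slots), averaged over the couplings in `R`, everything
which measures the distance to a rank one situation is controlled by `Th s R C K`, with
`KT T C ≤ K`.
-/

open MeasureTheory ProbabilityTheory Matrix

namespace Vale.Agent.P146.H633

open Vale.Agent.P157.Lv Vale.Agent.P146.H332 Vale.Agent.P146.H522 Vale.Agent.P146.H712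
  Vale.Agent.P146.R1C

set_option linter.unusedSectionVars false
set_option linter.unusedDecidableInType false

/-! ### fixed matrices -/

section fixed

variable {q : Type} [Fintype q] [DecidableEq q]

/-- The rank one defect is smaller than the defect of the 4-tensor. -/
theorem dfc_le_KT {T : q → q → q → q → ℝ} {C : Matrix q q ℝ} (hC : Cᵀ = C)
    (hT : ∀ i j p l, T i j p l = T i p j l) : dfc C ≤ 2 * KT T C := by
  have h1 : ∀ i j k l, (C i j * C k l - C i k * C j l) ^ 2 ≤
      2 * (T i j k l - C i j * C k l) ^ 2 + 2 * (T i k j l - C i k * C j l) ^ 2 := by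
    intro i j k l
    have e : C i j * C k l - C i k * C j l =
        (T i k j l - C i k * C j l) - (T i j k l - C i j * C k l) := by
      rw [hT i j k l]; ring
    rw [e]
    nlinarith [sq_nonneg ((T i k j l - C i k * C j l) + (T i j k l - C i j * C k l))]
  have h2 : ∑ i, ∑ j, ∑ k, ∑ l, (T i k j l - C i k * C j l) ^ 2 = KT T C := by
    unfold KT
    refine Finset.sum_congr rfl fun i _ => ?_
    rw [Finset.sum_comm]
  have h3 := (Finset.sum_le_sum fun i (_ : i ∈ Finset.univ) => Finset.sum_le_sum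
    fun j (_ : j ∈ Finset.univ) => Finset.sum_le_sum fun k (_ : k ∈ Finset.univ) =>
    Finset.sum_le_sum fun l (_ : l ∈ Finset.univ) => h1 i j k l)
  have m1 : ∀ (c : ℝ) (F : q → q → q → q → ℝ), ∑ i, ∑ j, ∑ k, ∑ l, c * F i j k l =
      c * ∑ i, ∑ j, ∑ k, ∑ l, F i j k l := fun c F => by simp only [Finset.mul_sum]
  simp only [Finset.sum_add_distrib] at h3
  rw [m1, m1, h2, two_dfc hC] at h3
  have h4 : ∑ i, ∑ j, ∑ k, ∑ l, (T i j k l - C i j * C k l) ^ 2 = KT T C := rfl
  rw [h4] at h3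
  linarith

lemma fr_neg_sub (A B : Matrix q q ℝ) : fr (A - B) = fr (B - A) := by
  unfold fr
  refine Finset.sum_congr rfl fun i _ => Finset.sum_congr rfl fun j _ => ?_
  rw [Matrix.sub_apply, Matrix.sub_apply]; ring

lemma fr_add_le (A B : Matrix q q ℝ) : fr (A + B) ≤ 2 * fr A + 2 * fr B := by
  have h := fr_sub_le A (-B)
  have e : fr (-B) = fr B := by
    unfold fr
    refine Finset.sum_congr rfl fun i _ => Finset.sum_congr rfl fun j _ => ?_
    rw [Matrix.neg_apply]; ring
  rw [sub_neg_eq_add, e] at h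
  exact h

/-- the Frobenius norm splits at a unit vector -/
lemma fr_split {v : q → ℝ} (hv : ∑ i, v i ^ 2 = 1) (M : Matrix q q ℝ) :
    fr M = fr (M - (v ⬝ᵥ (M *ᵥ v)) • vecMulVec v v) + (v ⬝ᵥ (M *ᵥ v)) ^ 2 := by
  set m := v ⬝ᵥ (M *ᵥ v) with hm
  have e1 : m = ∑ i, ∑ j, v i * v j * M i j := by
    rw [hm]
    unfold dotProduct mulVec dotProduct
    refine Finset.sum_congr rfl fun i _ => ?_
    rw [Finset.mul_sum]
    exact Finset.sum_congr rfl fun j _ => by ring
  have e2 : ∑ i, ∑ j, (v i * v j) ^ 2 = 1 := by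
    simp only [mul_pow, ← Finset.mul_sum, ← Finset.sum_mul, hv]
    norm_num
  have e3 : fr (M - m • vecMulVec v v) =
      fr M - 2 * m * ∑ i, ∑ j, v i * v j * M i j + m ^ 2 * ∑ i, ∑ j, (v i * v j) ^ 2 := by
    unfold fr
    rw [Finset.mul_sum, Finset.mul_sum, ← Finset.sum_sub_distrib, ← Finset.sum_add_distrib]
    refine Finset.sum_congr rfl fun i _ => ?_
    rw [Finset.mul_sum, Finset.mul_sum, ← Finset.sum_sub_distrib, ← Finset.sum_add_distrib]
    refine Finset.sum_congr rfl fun j _ => ?_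
    rw [Matrix.sub_apply, Matrix.smul_apply, vecMulVec_apply, smul_eq_mul]
    ring
  rw [e3, ← e1, e2]
  ring

/-- `(v · C v)²`-defect of the 4-tensor in the direction `v`. -/
lemma v4_le {v : q → ℝ} (hv : ∑ i, v i ^ 2 = 1) (T : q → q → q → q → ℝ) (C : Matrix q q ℝ) :
    ∑ i, ∑ j, ∑ k, ∑ l, v i * v j * v k * v l * T i j k l ≤
      (v ⬝ᵥ (C *ᵥ v)) ^ 2 + √(KT T C) := by
  have e1 : (v ⬝ᵥ (C *ᵥ v)) ^ 2 =
      ∑ i, ∑ j, ∑ k, ∑ l, v i * v j * v k * v l * (C i j * C k l) := by
    have e2 : v ⬝ᵥ (C *ᵥ v) = ∑ i, ∑ j, v i * v j * C i j := by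
      unfold dotProduct mulVec dotProduct
      refine Finset.sum_congr rfl fun i _ => ?_
      rw [Finset.mul_sum]
      exact Finset.sum_congr rfl fun j _ => by ring
    rw [sq, e2, Finset.sum_mul]
    refine Finset.sum_congr rfl fun i _ => ?_
    rw [Finset.sum_mul]
    refine Finset.sum_congr rfl fun j _ => ?_
    rw [Finset.mul_sum]
    refine Finset.sum_congr rfl fun k _ => ?_
    rw [Finset.mul_sum]
    exact Finset.sum_congr rfl fun l _ => by ring
  have e3 : ∑ i, ∑ j, ∑ k, ∑ l, v i * v j * v k * v l * T i j k l -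
      ∑ i, ∑ j, ∑ k, ∑ l, v i * v j * v k * v l * (C i j * C k l) =
      ∑ i, ∑ j, ∑ k, ∑ l, v i * v j * v k * v l * (T i j k l - C i j * C k l) := by
    simp only [← Finset.sum_sub_distrib, ← mul_sub]
  have e4 : ∑ i, ∑ j, ∑ k, ∑ l, v i * v j * v k * v l * (T i j k l - C i j * C k l) ≤
      √(KT T C) := by
    refine Real.le_sqrt_of_sq_le ?_
    have h1 : ∀ (F : q → q → q → q → ℝ), ∑ i, ∑ j, ∑ k, ∑ l, F i j k l =
        ∑ p : q × q × q × q, F p.1 p.2.1 p.2.2.1 p.2.2.2 := by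
      intro F
      simp only [Fintype.sum_prod_type]
    have h2 := Finset.sum_mul_sq_le_sq_mul_sq (Finset.univ : Finset (q × q × q × q))
      (fun p => v p.1 * v p.2.1 * v p.2.2.1 * v p.2.2.2)
      (fun p => T p.1 p.2.1 p.2.2.1 p.2.2.2 - C p.1 p.2.1 * C p.2.2.1 p.2.2.2)
    rw [← h1 fun i j k l => v i * v j * v k * v l * (T i j k l - C i j * C k l),
      ← h1 fun i j k l => (v i * v j * v k * v l) ^ 2,
      ← h1 fun i j k l => (T i j k l - C i j * C k l) ^ 2] at h2
    have h3 : ∑ i, ∑ j, ∑ k, ∑ l, (v i * v j * v k * v l) ^ 2 = 1 := by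
      simp only [mul_pow, ← Finset.mul_sum, ← Finset.sum_mul, hv]
      norm_num
    rw [h3, one_mul] at h2
    exact h2
  rw [e1]
  linarith

end fixed

/-! ### averages -/

section rnd

variable {κ : Type} [Fintype κ] [DecidableEq κ] {q : Type} [Fintype q] [DecidableEq q]
  {s : ℝ} {R : Finset κ} {C : (κ → ℝ) → Matrix q q ℝ} {T : (κ → ℝ) → q → q → q → q → ℝ}
  {K : (κ → ℝ) → ℝ}

/-- The hypotheses of the bulk transfer. -/
structure BH (C : (κ → ℝ) → Matrix q q ℝ) (T : (κ → ℝ) → q → q → q → q → ℝ)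
    (K : (κ → ℝ) → ℝ) : Prop where
  egC : ∀ i j, EG fun z => C z i j
  sy : ∀ z, (C z)ᵀ = C z
  mid : ∀ z i j p l, T z i j p l = T z i p j l
  egT : ∀ i j p l, EG fun z => T z i j p l
  egK : EG K
  le : ∀ z, KT (T z) (C z) ≤ K z

lemma AvP_ge {c : ℝ} {f : (κ → ℝ) → ℝ} (hf : EG f) (z : κ → ℝ)
    (h : ∀ w, c ≤ f (H712.sw R z w)) : c ≤ AvP s R f z := by
  have h1 : ∫ _g : κ → ℝ, c ∂(gI κ) ≤ AvP s R f z :=
    integral_mono (integrable_const c) (eg_AvP_in hf s R z).integrable fun g => h _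
  simpa using h1

lemma AvP_le {c : ℝ} {f : (κ → ℝ) → ℝ} (hf : EG f) (z : κ → ℝ)
    (h : ∀ w, f (H712.sw R z w) ≤ c) : AvP s R f z ≤ c := by
  have h1 : AvP s R f z ≤ ∫ _g : κ → ℝ, c ∂(gI κ) :=
    integral_mono (eg_AvP_in hf s R z).integrable (integrable_const c) fun g => h _
  simpa using h1

lemma CB_sw (z w : κ → ℝ) : CB s R C (H712.sw R z w) = CB s R C z := by
  funext i j
  exact AvP_sw _ z w

lemma CB_T (hC : ∀ z, (C z)ᵀ = C z) (z : κ → ℝ) : (CB s R C z)ᵀ = CB s R C z := by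
  ext i j
  rw [transpose_apply]
  unfold CB
  refine AvP_congr (fun z => ?_) z
  rw [← transpose_apply (C z), hC]

/-- average of the square = square of the average + variance -/
lemma bias (hC : ∀ i j, EG fun z => C z i j) (z : κ → ℝ) :
    AvP s R (fun z => fr (C z)) z = fr (CB s R C z) + AvP s R (Dlt s R C) z := by
  have h1 : ∀ i j, AvP s R (fun z => C z i j ^ 2) z = CB s R C z i j ^ 2 +
      AvP s R (fun z => (C z i j - CB s R C z i j) ^ 2) z := by
    intro i j
    have e : AvP s R (fun z => (C z i j - CB s R C z i j) ^ 2) z =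
        AvP s R (fun z' => (C z' i j ^ 2 + (-2 * CB s R C z i j) * C z' i j) +
          CB s R C z i j ^ 2) z := by
      unfold AvP
      refine integral_congr_ae (Filter.Eventually.of_forall fun g => ?_)
      show (C (H712.sw R z (√s • g)) i j - CB s R C (H712.sw R z (√s • g)) i j) ^ 2 =
        (C (H712.sw R z (√s • g)) i j ^ 2 + (-2 * CB s R C z i j) *
          C (H712.sw R z (√s • g)) i j) + CB s R C z i j ^ 2
      rw [CB_sw]; ring
    rw [e, AvP_add (((hC i j).pow 2).add ((hC i j).const_mul _)) (EG.const _),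
      AvP_add ((hC i j).pow 2) ((hC i j).const_mul _), AvP_const_mul, AvP_const]
    have : AvP s R (fun z => C z i j) z = CB s R C z i j := rfl
    rw [this]; ring
  have h2 : AvP s R (fun z => fr (C z)) z = ∑ i, ∑ j, AvP s R (fun z => C z i j ^ 2) z := by
    unfold fr
    rw [AvP_sum _ fun i _ => EG.sum _ fun j _ => (hC i j).pow 2]
    exact Finset.sum_congr rfl fun i _ => AvP_sum _ (fun j _ => (hC i j).pow 2) z
  have h3 : AvP s R (Dlt s R C) z =
      ∑ i, ∑ j, AvP s R (fun z => (C z i j - CB s R C z i j) ^ 2) z := by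
    have e : ∀ z, Dlt s R C z = ∑ i, ∑ j, (C z i j - CB s R C z i j) ^ 2 := fun z => rfl
    have hv : ∀ i j, EG fun z => (C z i j - CB s R C z i j) ^ 2 :=
      fun i j => ((hC i j).sub (eg_CB hC s R i j)).pow 2
    rw [AvP_congr e z, AvP_sum _ fun i _ => EG.sum _ fun j _ => hv i j]
    exact Finset.sum_congr rfl fun i _ => AvP_sum _ (fun j _ => hv i j) z
  rw [h2, h3]
  unfold fr
  rw [← Finset.sum_add_distrib]
  refine Finset.sum_congr rfl fun i _ => ?_
  rw [← Finset.sum_add_distrib]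
  exact Finset.sum_congr rfl fun j _ => h1 i j

variable (h : BH C T K)
include h

lemma BH.K0 (z : κ → ℝ) : 0 ≤ K z := (KT_nonneg _ _).trans (h.le z)

lemma BH.AvK0 (z : κ → ℝ) : 0 ≤ AvP s R K z := AvP_nonneg h.K0 z

lemma BH.DF0 (z : κ → ℝ) : 0 ≤ AvP s R (fun z => Dlt s R C z * fr (C z)) z :=
  AvP_nonneg (fun z => mul_nonneg (Dlt_nonneg z) (frn _)) z

lemma BH.FD0 (z : κ → ℝ) : 0 ≤ AvP s R (fun z => fr (C z)) z * AvP s R (Dlt s R C) z :=
  mul_nonneg (AvP_nonneg (fun _ => frn _) z) (AvP_nonneg (fun z => Dlt_nonneg z) z)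

lemma BH.Th0 (z : κ → ℝ) : 0 ≤ Th s R C K z :=
  add_nonneg (add_nonneg (h.AvK0 z) (h.FD0 z)) (h.DF0 z)

/-- **(BT0)** the averaged matrix is almost of rank one. -/
theorem BH.bt0 (z : κ → ℝ) : dfc (CB s R C z) ≤ 8 * Th s R C K z := by
  have hD := eg_Dlt h.egC s R
  have hf := eg_frC h.egC
  have g1 : EG fun z' => 4 * K z' + 8 * (fr (CB s R C z) * Dlt s R C z' +
      Dlt s R C z' * fr (C z')) :=
    (h.egK.const_mul 4).add (((hD.const_mul _).add (hD.mul hf)).const_mul 8)
  have h1 : dfc (CB s R C z) ≤ AvP s R (fun z' => 4 * K z' +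
      8 * (fr (CB s R C z) * Dlt s R C z' + Dlt s R C z' * fr (C z'))) z := by
    refine AvP_ge g1 z fun w => ?_
    set z' := H712.sw R z w with hz'
    have a1 := dfc_le (CB_T (s := s) (R := R) h.sy z) (h.sy z')
    have a2 := dfc_le_KT (h.sy z') (h.mid z')
    have a3 := h.le z'
    have a4 : fr (CB s R C z - C z') = Dlt s R C z' := by
      unfold Dlt
      rw [fr_neg_sub, hz', CB_sw]
    rw [a4] at a1
    have a5 : Dlt s R C z' * (fr (CB s R C z) + fr (C z')) =
      fr (CB s R C z) * Dlt s R C z' + Dlt s R C z' * fr (C z') := by ring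
    rw [a5] at a1
    linarith
  rw [AvP_add (h.egK.const_mul 4) (((hD.const_mul _).add (hD.mul hf)).const_mul 8),
    AvP_const_mul, AvP_const_mul, AvP_add (hD.const_mul _) (hD.mul hf), AvP_const_mul] at h1
  have h2 := fr_CB_le (s := s) (R := R) h.egC z
  have h3 := mul_le_mul_of_nonneg_right h2 (AvP_nonneg (fun z => Dlt_nonneg z) z :
    0 ≤ AvP s R (Dlt s R C) z)
  have h4 := h.AvK0 (s := s) (R := R) z
  unfold Th
  linarith

/-- **(E0)** a psd matrix below a multiple of the averaged matrix is almost of rank one. -/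
theorem BH.e0 {v : q → ℝ} (hv : ∑ i, v i ^ 2 = 1) (z : κ → ℝ)
    (hvt : fr (pj v * CB s R C z * pj v) * fr (CB s R C z) ≤ dfc (CB s R C z))
    {M : Matrix q q ℝ} {c : ℝ} (hM : Psd M) (hMC : Psd (c • CB s R C z - M)) :
    fr (M - (v ⬝ᵥ (M *ᵥ v)) • vecMulVec v v) ≤
      c ^ 2 * min (9 * √(Th s R C K z)) (AvP s R (fun z => fr (C z)) z) := by
  have hc2 : ∀ X : Matrix q q ℝ, fr (c • X) = c ^ 2 * fr X := by
    intro X
    unfold fr
    simp only [Matrix.smul_apply, smul_eq_mul, mul_pow, Finset.mul_sum]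
  rw [mul_min_of_nonneg _ _ (sq_nonneg c)]
  refine le_min ?_ ?_
  · have h1 := rank_one hM hMC hv
    have h2 : pj v * (c • CB s R C z) * pj v = c • (pj v * CB s R C z * pj v) := by
      rw [Matrix.mul_smul, Matrix.smul_mul]
    rw [h2, hc2, hc2] at h1
    have h3 : c ^ 2 * fr (pj v * CB s R C z * pj v) * (c ^ 2 * fr (CB s R C z)) =
        (c ^ 2) ^ 2 * (fr (pj v * CB s R C z * pj v) * fr (CB s R C z)) := by ring
    rw [h3, Real.sqrt_mul (by positivity), Real.sqrt_sq (sq_nonneg c)] at h1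
    have h4 : √(fr (pj v * CB s R C z * pj v) * fr (CB s R C z)) ≤ 3 * √(Th s R C K z) := by
      have h5 : (3 : ℝ) = √9 := by
        rw [show (9 : ℝ) = 3 ^ 2 by norm_num, Real.sqrt_sq (by norm_num)]
      rw [h5, ← Real.sqrt_mul (by norm_num)]
      refine Real.sqrt_le_sqrt (hvt.trans ((h.bt0 z).trans ?_))
      have := h.Th0 (s := s) (R := R) z
      linarith
    have h6 := mul_le_mul_of_nonneg_left h4 (sq_nonneg c)
    linarith
  · have h1 := fr_split hv M
    have h2 : fr M ≤ fr (c • CB s R C z) := fr_mono hM hMC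
    rw [hc2] at h2
    have h3 := mul_le_mul_of_nonneg_left (fr_CB_le (s := s) (R := R) h.egC z) (sq_nonneg c)
    have h4 := sq_nonneg (v ⬝ᵥ (M *ᵥ v))
    linarith

omit h in
lemma eg_rho (P : Matrix q q ℝ) {T : (κ → ℝ) → q → q → q → q → ℝ}
    (hT : ∀ i j p l, EG fun z => T z i j p l) (i j k l : q) :
    EG fun z => rho P (T z) i j k l := by
  unfold rho
  exact EG.sum _ fun a _ => (hT a i j k).const_mul _

omit h in
lemma eg_n4 {T : (κ → ℝ) → q → q → q → q → ℝ} (hT : ∀ i j p l, EG fun z => T z i j p l) :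
    EG fun z => n4 (T z) := by
  unfold n4
  exact EG.sum _ fun i _ => EG.sum _ fun j _ => EG.sum _ fun k _ => EG.sum _ fun l _ =>
    (hT i j k l).pow 2

omit h in
lemma eg_rho4 (P : Matrix q q ℝ) {T : (κ → ℝ) → q → q → q → q → ℝ}
    (hT : ∀ i j p l, EG fun z => T z i j p l) (i j k l : q) :
    EG fun z => rho4 P (T z) i j k l := by
  unfold rho4
  exact eg_rho P (eg_rho P (eg_rho P (eg_rho P hT))) i j k l

/-- **(E1)** the projected 4-tensor is small. -/
theorem BH.e1 {v : q → ℝ} (hv : ∑ i, v i ^ 2 = 1) (z : κ → ℝ)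
    (hvt : fr (pj v * CB s R C z * pj v) * fr (CB s R C z) ≤ dfc (CB s R C z)) :
    AvP s R (fun z => n4 (rho4 (pj v) (T z))) z ≤ 36 * Th s R C K z := by
  have hD := eg_Dlt h.egC s R
  have hf := eg_frC h.egC
  set p : ℝ := fr (pj v * CB s R C z * pj v) with hp
  have g1 : EG fun z' => (4 * p) * fr (C z') + (4 * (Dlt s R C z' * fr (C z')) + 2 * K z') :=
    (hf.const_mul _).add (((hD.mul hf).const_mul 4).add (h.egK.const_mul 2))
  have g2 : EG fun z => n4 (rho4 (pj v) (T z)) := eg_n4 fun i j k l => eg_rho4 _ h.egT i j k l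
  have h1 : AvP s R (fun z => n4 (rho4 (pj v) (T z))) z ≤ AvP s R (fun z' =>
      (4 * p) * fr (C z') + (4 * (Dlt s R C z' * fr (C z')) + 2 * K z')) z := by
    have h0 : 0 ≤ AvP s R (fun z' => ((4 * p) * fr (C z') +
        (4 * (Dlt s R C z' * fr (C z')) + 2 * K z')) - n4 (rho4 (pj v) (T z'))) z := by
      refine AvP_ge (g1.sub g2) z fun w => ?_
      set z' := H712.sw R z w with hz'
      have a1 := n4_rho4 hv (T z') (C z')
      have a2 := h.le z'
      have a3 : fr (pj v * C z' * pj v) ≤ 2 * p + 2 * Dlt s R C z' := by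
        have b1 : pj v * C z' * pj v = pj v * CB s R C z * pj v +
            pj v * (C z' - CB s R C z) * pj v := by
          rw [Matrix.mul_sub, Matrix.sub_mul]; abel
        rw [b1]
        refine (fr_add_le _ _).trans ?_
        have b2 : fr (pj v * (C z' - CB s R C z) * pj v) ≤ Dlt s R C z' := by
          refine (fr_pap_le hv _).trans (le_of_eq ?_)
          unfold Dlt
          rw [hz', CB_sw]
        linarith
      have a4 : fr (pj v * C z' * pj v) ≤ fr (C z') := fr_pap_le hv _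
      have a5 : fr (pj v * C z' * pj v) ^ 2 ≤ (2 * p + 2 * Dlt s R C z') * fr (C z') := by
        rw [sq]
        exact mul_le_mul a3 a4 (frn _) ((frn _).trans a3)
      linarith
    rw [AvP_sub g1 g2] at h0
    linarith
  rw [AvP_add (hf.const_mul _) (((hD.mul hf).const_mul 4).add (h.egK.const_mul 2)),
    AvP_const_mul, AvP_add ((hD.mul hf).const_mul 4) (h.egK.const_mul 2), AvP_const_mul,
    AvP_const_mul] at h1
  have h2 := bias (s := s) (R := R) h.egC z
  have h3 : p * AvP s R (fun z => fr (C z)) z ≤ 8 * Th s R C K z +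
      AvP s R (fun z => fr (C z)) z * AvP s R (Dlt s R C) z := by
    have a1 := hvt.trans (h.bt0 z)
    have a2 : p ≤ AvP s R (fun z => fr (C z)) z :=
      (fr_pap_le hv _).trans (fr_CB_le (s := s) (R := R) h.egC z)
    have a3 := mul_le_mul_of_nonneg_right a2 (AvP_nonneg (fun z => Dlt_nonneg z) z :
      0 ≤ AvP s R (Dlt s R C) z)
    calc p * AvP s R (fun z => fr (C z)) z = p * fr (CB s R C z) +
          p * AvP s R (Dlt s R C) z := by rw [h2]; ring
      _ ≤ _ := by linarith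
  have h4 := h.AvK0 (s := s) (R := R) z
  have h5 := h.DF0 (s := s) (R := R) z
  have h6 := h.FD0 (s := s) (R := R) z
  have h7 : Th s R C K z = AvP s R K z + AvP s R (fun z => fr (C z)) z *
    AvP s R (Dlt s R C) z + AvP s R (fun z => Dlt s R C z * fr (C z)) z := rfl
  nlinarith

/-- the full 4-tensor -/
theorem BH.e1' (z : κ → ℝ) : AvP s R (fun z => n4 (T z)) z ≤
    2 * AvP s R (fun z => fr (C z) ^ 2) z + 2 * AvP s R K z := by
  have hf := (eg_frC h.egC).pow 2
  have h1 : AvP s R (fun z => n4 (T z)) z ≤ AvP s R (fun z => 2 * fr (C z) ^ 2 + 2 * K z) z := by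
    refine AvP_mono (eg_n4 h.egT) ((hf.const_mul 2).add (h.egK.const_mul 2)) (fun z => ?_) z
    have a1 := n4_le (T z) (C z)
    have a2 := h.le z
    linarith
  rwa [AvP_add (hf.const_mul 2) (h.egK.const_mul 2), AvP_const_mul, AvP_const_mul] at h1

/-- the average of the defect in the direction `v` (`lam = v · CB v`) -/
theorem BH.e3 {v : q → ℝ} (hv : ∑ i, v i ^ 2 = 1) (z : κ → ℝ) {l : ℝ}
    (hl : l = v ⬝ᵥ (CB s R C z *ᵥ v)) :
    AvP s R (fun z' => ∑ i, ∑ j, ∑ k, ∑ m, v i * v j * v k * v m * T z' i j k m -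
      2 * l * (v ⬝ᵥ (C z' *ᵥ v)) + l ^ 2) z ≤ √(AvP s R K z) + AvP s R (Dlt s R C) z := by
  have hD := eg_Dlt h.egC s R
  have hq : EG fun z' => v ⬝ᵥ (C z' *ᵥ v) := by
    have e2 : (fun z' => v ⬝ᵥ (C z' *ᵥ v)) = fun z' => ∑ i, ∑ j, v i * v j * C z' i j := by
      funext z'
      unfold dotProduct mulVec dotProduct
      refine Finset.sum_congr rfl fun i _ => ?_
      rw [Finset.mul_sum]
      exact Finset.sum_congr rfl fun j _ => by ring
    rw [e2]
    exact EG.sum _ fun i _ => EG.sum _ fun j _ => (h.egC i j).const_mul _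
  have g1 : EG fun z' => ∑ i, ∑ j, ∑ k, ∑ m, v i * v j * v k * v m * T z' i j k m -
      2 * l * (v ⬝ᵥ (C z' *ᵥ v)) + l ^ 2 :=
    ((EG.sum _ fun i _ => EG.sum _ fun j _ => EG.sum _ fun k _ => EG.sum _ fun m _ =>
      (h.egT i j k m).const_mul _).sub (hq.const_mul _)).add (EG.const _)
  -- the square root of `K`, linearized
  have key : ∀ t : ℝ, 0 < t → AvP s R (fun z' => ∑ i, ∑ j, ∑ k, ∑ m,
      v i * v j * v k * v m * T z' i j k m - 2 * l * (v ⬝ᵥ (C z' *ᵥ v)) + l ^ 2) z ≤
      (1 / (2 * t)) * AvP s R K z + t / 2 + AvP s R (Dlt s R C) z := by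
    intro t ht
    have g2 : EG fun z' => ((1 / (2 * t)) * K z' + t / 2) + Dlt s R C z' :=
      ((h.egK.const_mul _).add (EG.const _)).add hD
    have h0 : 0 ≤ AvP s R (fun z' => (((1 / (2 * t)) * K z' + t / 2) + Dlt s R C z') -
        (∑ i, ∑ j, ∑ k, ∑ m, v i * v j * v k * v m * T z' i j k m -
          2 * l * (v ⬝ᵥ (C z' *ᵥ v)) + l ^ 2)) z := by
      refine AvP_ge (g2.sub g1) z fun w => ?_
      set z' := H712.sw R z w with hz'
      have a1 := v4_le hv (T z') (C z')
      have a2 : √(KT (T z') (C z')) ≤ (1 / (2 * t)) * K z' + t / 2 := by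
        refine (Real.sqrt_le_sqrt (h.le z')).trans ?_
        have hs := Real.sq_sqrt (h.K0 z')
        have b1 : (1 / (2 * t)) * K z' + t / 2 - √(K z') = (√(K z') - t) ^ 2 / (2 * t) := by
          field_simp
          nlinarith
        have b2 : 0 ≤ (√(K z') - t) ^ 2 / (2 * t) := by positivity
        linarith
      have a3 : (v ⬝ᵥ (C z' *ᵥ v)) - l = v ⬝ᵥ ((C z' - CB s R C z) *ᵥ v) := by
        rw [hl, sub_mulVec, dotProduct_sub]
      have a4 : ((v ⬝ᵥ (C z' *ᵥ v)) - l) ^ 2 ≤ Dlt s R C z' := by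
        rw [a3]
        have b1 := fr_split hv (C z' - CB s R C z)
        have b2 : fr (C z' - CB s R C z) = Dlt s R C z' := by
          unfold Dlt
          rw [hz', CB_sw]
        rw [b2] at b1
        have b3 := frn (C z' - CB s R C z -
          (v ⬝ᵥ ((C z' - CB s R C z) *ᵥ v)) • vecMulVec v v)
        linarith
      nlinarith
    rw [AvP_sub g2 g1, AvP_add ((h.egK.const_mul _).add (EG.const _)) hD,
      AvP_add (h.egK.const_mul _) (EG.const _), AvP_const_mul, AvP_const] at h0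
    linarith
  have hK := h.AvK0 (s := s) (R := R) z
  rcases hK.eq_or_lt with h0 | h0
  · rw [← h0, Real.sqrt_zero, zero_add]
    refine le_of_forall_pos_le_add fun ε hε => ?_
    have := key ε hε
    rw [← h0, mul_zero] at this
    linarith
  · have h1 := key _ (Real.sqrt_pos.2 h0)
    have hs := Real.sq_sqrt hK
    have h2 : 1 / (2 * √(AvP s R K z)) * AvP s R K z = √(AvP s R K z) / 2 := by
      have h3 := Real.sqrt_pos.2 h0
      rw [div_mul_eq_mul_div, one_mul, div_eq_div_iff (by positivity) (by norm_num)]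
      nlinarith
    rw [h2] at h1
    linarith

end rnd

end Vale.Agent.P146.H633
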