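import Vale.Agent.P146.H633.Psd1
import Vale.Agent.P146.H633.BtDef

/-!
Projected 4-tensors: `|P⊗P⊗P⊗P T|² ≤ 2 |P C P|⁴ + 2 |T - C ⊗ C|²`, and the replica form of the
left hand side.
-/

open Matrix Vale.Agent.P146.H332 Vale.Agent.P146.H522

namespace Vale.Agent.P146.H633

set_option linter.unusedSectionVars false
set_option linter.unusedDecidableInType false

variable {q : Type} [Fintype q] [DecidableEq q]

/-- Apply `P` to the first slot and move it to the end. -/
def rho (P : Matrix q q ℝ) (T : q → q → q → q → ℝ) : q → q → q → q → ℝ :=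
  fun i j k l => ∑ a, P l a * T a i j k

/-- `P` in all slots. -/
def rho4 (P : Matrix q q ℝ) (T : q → q → q → q → ℝ) : q → q → q → q → ℝ :=
  rho P (rho P (rho P (rho P T)))

/-- the square of the norm of a 4-tensor -/
def n4 (T : q → q → q → q → ℝ) : ℝ := ∑ i, ∑ j, ∑ k, ∑ l, T i j k l ^ 2

lemma n4_nonneg (T : q → q → q → q → ℝ) : 0 ≤ n4 T := by unfold n4; positivity

lemma KT_eq (T : q → q → q → q → ℝ) (C : Matrix q q ℝ) :
    KT T C = n4 fun i j k l => T i j k l - C i j * C k l := rfl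

lemma n4_rho_le {v : q → ℝ} (hv : ∑ i, v i ^ 2 = 1) (T : q → q → q → q → ℝ) :
    n4 (rho (pj v) T) ≤ n4 T := by
  have h1 : n4 T = ∑ i, ∑ j, ∑ k, ∑ a, T a i j k ^ 2 := by
    unfold n4
    calc ∑ i, ∑ j, ∑ k, ∑ l, T i j k l ^ 2 = ∑ j, ∑ i, ∑ k, ∑ l, T i j k l ^ 2 :=
          Finset.sum_comm
      _ = ∑ j, ∑ k, ∑ i, ∑ l, T i j k l ^ 2 :=
          Finset.sum_congr rfl fun j _ => Finset.sum_comm
      _ = ∑ j, ∑ k, ∑ l, ∑ i, T i j k l ^ 2 :=
          Finset.sum_congr rfl fun j _ => Finset.sum_congr rfl fun k _ => Finset.sum_comm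
  rw [h1]
  unfold n4 rho
  refine Finset.sum_le_sum fun i _ => Finset.sum_le_sum fun j _ => Finset.sum_le_sum fun k _ => ?_
  exact pj_norm_le hv fun a => T a i j k

lemma n4_rho4_le {v : q → ℝ} (hv : ∑ i, v i ^ 2 = 1) (T : q → q → q → q → ℝ) :
    n4 (rho4 (pj v) T) ≤ n4 T :=
  (n4_rho_le hv _).trans ((n4_rho_le hv _).trans ((n4_rho_le hv _).trans (n4_rho_le hv _)))

lemma rho_sub (P : Matrix q q ℝ) (T S : q → q → q → q → ℝ) :
    rho P (fun i j k l => T i j k l - S i j k l) =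
      fun i j k l => rho P T i j k l - rho P S i j k l := by
  funext i j k l
  unfold rho
  rw [← Finset.sum_sub_distrib]
  exact Finset.sum_congr rfl fun a _ => by ring

lemma rho4_sub (P : Matrix q q ℝ) (T S : q → q → q → q → ℝ) :
    rho4 P (fun i j k l => T i j k l - S i j k l) =
      fun i j k l => rho4 P T i j k l - rho4 P S i j k l := by
  unfold rho4
  rw [rho_sub, rho_sub, rho_sub, rho_sub]

/-- the projected tensor square -/
lemma rho4_prod {P : Matrix q q ℝ} (hP : Pᵀ = P) (C : Matrix q q ℝ) (i j k l : q) :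
    rho4 P (fun i j k l => C i j * C k l) i j k l = (P * C * P) i j * (P * C * P) k l := by
  have hs : ∀ a b, P a b = P b a := fun a b => by rw [← transpose_apply P, hP]
  have e1 : ∀ i j, (P * C * P) i j = ∑ b, ∑ a, P i a * C a b * P b j := by
    intro i j
    simp only [mul_apply, Finset.sum_mul]
  have e2 : rho4 P (fun i j k l => C i j * C k l) i j k l =
      ∑ d, P l d * ∑ c, P k c * ∑ b, P j b * ∑ a, P i a * (C a b * C c d) := rfl
  rw [e2, e1, e1]
  have e3 : ∀ c d, ∑ b, P j b * ∑ a, P i a * (C a b * C c d) =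
      (∑ b, ∑ a, P i a * C a b * P b j) * C c d := by
    intro c d
    rw [Finset.sum_mul]
    refine Finset.sum_congr rfl fun b _ => ?_
    rw [Finset.mul_sum, Finset.sum_mul]
    refine Finset.sum_congr rfl fun a _ => ?_
    rw [hs j b]; ring
  simp only [e3]
  rw [Finset.mul_sum]
  refine Finset.sum_congr rfl fun d _ => ?_
  rw [Finset.mul_sum, Finset.mul_sum]
  refine Finset.sum_congr rfl fun c _ => ?_
  rw [hs l d]; ring

lemma n4_prod (C : Matrix q q ℝ) : n4 (fun i j k l => C i j * C k l) = fr C ^ 2 := by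
  unfold n4
  rw [sq]
  unfold fr
  rw [Finset.sum_mul]
  refine Finset.sum_congr rfl fun i _ => ?_
  rw [Finset.sum_mul]
  refine Finset.sum_congr rfl fun j _ => ?_
  simp only [Finset.mul_sum, mul_pow]

lemma n4_add_le (T S : q → q → q → q → ℝ) :
    n4 T ≤ 2 * n4 S + 2 * n4 fun i j k l => T i j k l - S i j k l := by
  unfold n4
  have e : ∀ (c : ℝ) (F : q → q → q → q → ℝ), c * ∑ i, ∑ j, ∑ k, ∑ l, F i j k l =
      ∑ i, ∑ j, ∑ k, ∑ l, c * F i j k l := fun c F => by simp only [Finset.mul_sum]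
  rw [e, e]
  simp only [← Finset.sum_add_distrib]
  refine Finset.sum_le_sum fun i _ => Finset.sum_le_sum fun j _ => Finset.sum_le_sum fun k _ =>
    Finset.sum_le_sum fun l _ => ?_
  nlinarith [sq_nonneg (T i j k l - 2 * S i j k l)]

/-- **The projected 4-tensor.** -/
theorem n4_rho4 {v : q → ℝ} (hv : ∑ i, v i ^ 2 = 1) (T : q → q → q → q → ℝ)
    (C : Matrix q q ℝ) :
    n4 (rho4 (pj v) T) ≤ 2 * fr (pj v * C * pj v) ^ 2 + 2 * KT T C := by
  have h1 := n4_add_le (rho4 (pj v) T) (rho4 (pj v) fun i j k l => C i j * C k l)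
  have h2 : (fun i j k l => rho4 (pj v) T i j k l -
      rho4 (pj v) (fun i j k l => C i j * C k l) i j k l) =
      rho4 (pj v) fun i j k l => T i j k l - C i j * C k l := (rho4_sub _ _ _).symm
  rw [h2] at h1
  have h3 : n4 (rho4 (pj v) fun i j k l => C i j * C k l) = fr (pj v * C * pj v) ^ 2 := by
    rw [← n4_prod]
    congr 1
    funext i j k l
    exact rho4_prod (pj_T v) C i j k l
  rw [h3] at h1
  have h4 := n4_rho4_le hv fun i j k l => T i j k l - C i j * C k l
  rw [← KT_eq] at h4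
  linarith

/-- the norm of the 4-tensor -/
theorem n4_le (T : q → q → q → q → ℝ) (C : Matrix q q ℝ) :
    n4 T ≤ 2 * fr C ^ 2 + 2 * KT T C := by
  have h1 := n4_add_le T fun i j k l => C i j * C k l
  rwa [n4_prod] at h1

/-! ### the replica form -/

section rep

variable {X : Type} [Fintype X] (μ : X → ℝ) (u : X → q → ℝ)

/-- The 4-tensor of a family of vectors. -/
def tX : q → q → q → q → ℝ := fun i j k l => ∑ x, μ x * (u x i * u x j * u x k * u x l)

lemma rho4_tX (P : Matrix q q ℝ) : rho4 P (tX μ u) = tX μ fun x => P *ᵥ u x := by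
  have step : ∀ f g h m : X → q → ℝ,
      rho P (fun i j k l => ∑ x, μ x * (f x i * g x j * h x k * m x l)) =
        fun i j k l => ∑ x, μ x * (g x i * h x j * m x k * (P *ᵥ f x) l) := by
    intro f g h m
    funext i j k l
    unfold rho
    simp only [Finset.mul_sum]
    rw [Finset.sum_comm]
    refine Finset.sum_congr rfl fun x _ => ?_
    unfold mulVec dotProduct
    rw [Finset.mul_sum, Finset.mul_sum]
    refine Finset.sum_congr rfl fun a _ => ?_
    ring
  unfold rho4 tX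
  rw [step, step, step, step]

lemma n4_tX : n4 (tX μ u) = ∑ x, ∑ y, μ x * μ y * (u x ⬝ᵥ u y) ^ 4 := by
  have e1 : ∀ x y, (u x ⬝ᵥ u y) ^ 4 =
      ∑ i, ∑ j, ∑ k, ∑ l, (u x i * u x j * u x k * u x l) * (u y i * u y j * u y k * u y l) := by
    intro x y
    have : (u x ⬝ᵥ u y) ^ 4 = (u x ⬝ᵥ u y) * ((u x ⬝ᵥ u y) * ((u x ⬝ᵥ u y) * (u x ⬝ᵥ u y))) := by
      ring
    rw [this]
    unfold dotProduct
    rw [Finset.sum_mul]
    refine Finset.sum_congr rfl fun i _ => ?_
    rw [Finset.sum_mul, Finset.mul_sum]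
    refine Finset.sum_congr rfl fun j _ => ?_
    rw [Finset.sum_mul, Finset.mul_sum, Finset.mul_sum]
    refine Finset.sum_congr rfl fun k _ => ?_
    rw [Finset.mul_sum, Finset.mul_sum, Finset.mul_sum]
    refine Finset.sum_congr rfl fun l _ => ?_
    ring
  have e2 : ∀ i j k l, tX μ u i j k l ^ 2 = ∑ x, ∑ y, μ x * (u x i * u x j * u x k * u x l) *
        (μ y * (u y i * u y j * u y k * u y l)) := by
    intro i j k l
    unfold tX
    rw [sq, Finset.sum_mul_sum]
  unfold n4
  simp only [e1, e2, Finset.mul_sum]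
  -- move the sums over the configurations outside
  calc ∑ i, ∑ j, ∑ k, ∑ l, ∑ x, ∑ y, μ x * (u x i * u x j * u x k * u x l) *
        (μ y * (u y i * u y j * u y k * u y l))
      = ∑ i, ∑ j, ∑ k, ∑ x, ∑ l, ∑ y, μ x * (u x i * u x j * u x k * u x l) *
        (μ y * (u y i * u y j * u y k * u y l)) :=
        Finset.sum_congr rfl fun i _ => Finset.sum_congr rfl fun j _ =>
          Finset.sum_congr rfl fun k _ => Finset.sum_comm
    _ = ∑ i, ∑ j, ∑ x, ∑ k, ∑ l, ∑ y, μ x * (u x i * u x j * u x k * u x l) *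
        (μ y * (u y i * u y j * u y k * u y l)) :=
        Finset.sum_congr rfl fun i _ => Finset.sum_congr rfl fun j _ => Finset.sum_comm
    _ = ∑ i, ∑ x, ∑ j, ∑ k, ∑ l, ∑ y, μ x * (u x i * u x j * u x k * u x l) *
        (μ y * (u y i * u y j * u y k * u y l)) :=
        Finset.sum_congr rfl fun i _ => Finset.sum_comm
    _ = ∑ x, ∑ i, ∑ j, ∑ k, ∑ l, ∑ y, μ x * (u x i * u x j * u x k * u x l) *
        (μ y * (u y i * u y j * u y k * u y l)) := Finset.sum_comm
    _ = ∑ x, ∑ i, ∑ j, ∑ k, ∑ y, ∑ l, μ x * (u x i * u x j * u x k * u x l) *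
        (μ y * (u y i * u y j * u y k * u y l)) :=
        Finset.sum_congr rfl fun x _ => Finset.sum_congr rfl fun i _ =>
          Finset.sum_congr rfl fun j _ => Finset.sum_congr rfl fun k _ => Finset.sum_comm
    _ = ∑ x, ∑ i, ∑ j, ∑ y, ∑ k, ∑ l, μ x * (u x i * u x j * u x k * u x l) *
        (μ y * (u y i * u y j * u y k * u y l)) :=
        Finset.sum_congr rfl fun x _ => Finset.sum_congr rfl fun i _ =>
          Finset.sum_congr rfl fun j _ => Finset.sum_comm
    _ = ∑ x, ∑ i, ∑ y, ∑ j, ∑ k, ∑ l, μ x * (u x i * u x j * u x k * u x l) *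
        (μ y * (u y i * u y j * u y k * u y l)) :=
        Finset.sum_congr rfl fun x _ => Finset.sum_congr rfl fun i _ => Finset.sum_comm
    _ = ∑ x, ∑ y, ∑ i, ∑ j, ∑ k, ∑ l, μ x * (u x i * u x j * u x k * u x l) *
        (μ y * (u y i * u y j * u y k * u y l)) :=
        Finset.sum_congr rfl fun x _ => Finset.sum_comm
    _ = _ := by
        refine Finset.sum_congr rfl fun x _ => Finset.sum_congr rfl fun y _ =>
          Finset.sum_congr rfl fun i _ => Finset.sum_congr rfl fun j _ =>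
          Finset.sum_congr rfl fun k _ => Finset.sum_congr rfl fun l _ => ?_
        ring

/-- **The replica form**: `∑ μ μ' (u · P u')⁴ = |P⊗P⊗P⊗P T|²`. -/
theorem rep_P {v : q → ℝ} (hv : ∑ i, v i ^ 2 = 1) :
    ∑ x, ∑ y, μ x * μ y * (u x ⬝ᵥ (pj v *ᵥ u y)) ^ 4 = n4 (rho4 (pj v) (tX μ u)) := by
  rw [rho4_tX, n4_tX]
  refine Finset.sum_congr rfl fun x _ => Finset.sum_congr rfl fun y _ => ?_
  congr 2
  rw [← sym_aux (pj_T v), mulVec_mulVec, pj_mul_self hv]

end rep

end Vale.Agent.P146.H633
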